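import Vale.Agent.P011UHB.Spec

/-!
Subsystems of rank at most two which are spanned by simple roots.
-/

set_option autoImplicit false
set_option linter.all false

namespace Vale.Agent.P011UHR3

open Vale.Agent.P183CH Vale.Agent.P011UHB

/-- the subsystem of type `A₁` -/
def r1 (R : RS) (j : Fin R.r) : Fin 2 → Fin 2 → R.Q :=
  fun a b => ![R.α j, 0] a - ![R.α j, 0] b

/-- the subsystem of type `A₂` -/
def r2 (R : RS) (i j : Fin R.r) : Fin 3 → Fin 3 → R.Q :=
  fun a b => ![R.α i + R.α j, R.α j, 0] a - ![R.α i + R.α j, R.α j, 0] b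

variable {R : RS} {i j : Fin R.r} {γ : R.Q}

theorem r1_eq (R : RS) (j : Fin R.r) (a b : Fin 2) :
    r1 R j a b = ((![1, 0] : Fin 2 → ℤ) a - (![1, 0] : Fin 2 → ℤ) b) • R.α j := by
  fin_cases a <;> fin_cases b <;> simp [r1]

theorem r2_eq (R : RS) (i j : Fin R.r) (a b : Fin 3) :
    r2 R i j a b = ((![1, 0, 0] : Fin 3 → ℤ) a - (![1, 0, 0] : Fin 3 → ℤ) b) • R.α i +
      ((![1, 1, 0] : Fin 3 → ℤ) a - (![1, 1, 0] : Fin 3 → ℤ) b) • R.α j := by
  fin_cases a <;> fin_cases b <;> simp [r2] <;> abel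

theorem eq_two (ne : i ≠ j) (h : R.In {i, j} γ) : γ = γ i • R.α i + γ j • R.α j := by
  ext l
  by_cases a : l = i
  · simp [a, RS.α_self, RS.α_ne ne]
  · by_cases b : l = j
    · simp [b, RS.α_self, RS.α_ne ne.symm]
    · simp [RS.α_ne a, RS.α_ne b, h l (by simp [a, b])]

theorem six {m n : ℤ} (h : m * m - m * n + n * n = 1) :
    (m = 1 ∧ n = 0) ∨ (m = 0 ∧ n = 1) ∨ (m = 1 ∧ n = 1) ∨ (m = -1 ∧ n = 0) ∨ (m = 0 ∧ n = -1) ∨
      (m = -1 ∧ n = -1) := by
  have h1 : m ≤ 1 := by nlinarith [mul_self_nonneg (m - 2 * n)]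
  have h2 : -1 ≤ m := by nlinarith [mul_self_nonneg (m - 2 * n)]
  have h3 : n ≤ 1 := by nlinarith [mul_self_nonneg (n - 2 * m)]
  have h4 : -1 ≤ n := by nlinarith [mul_self_nonneg (n - 2 * m)]
  interval_cases m <;> interval_cases n <;> simp_all

variable (hR : R.Ok)
include hR

theorem as1 (j : Fin R.r) : As R (r1 R j) := by
  refine ⟨fun a b h => ?_, fun a b c => by simp [r1], fun a b c d h h' => ?_,
    fun a b c d m n h h' e hm hn H => ?_⟩
  · fin_cases a <;> fin_cases b <;> simp [r1, hR.simple, hR.neg_mem (hR.simple j)] at h ⊢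
  · simp only [r1_eq, hR.B_smul, hR.B_comm (R.α j) (_ • R.α j)]
    fin_cases a <;> fin_cases b <;> fin_cases c <;> fin_cases d <;> simp at h h' ⊢
  · rw [r1_eq, r1_eq, ← natCast_zsmul, ← natCast_zsmul, smul_smul, smul_smul, ← add_smul] at H
    have := hR.red _ _ H
    fin_cases a <;> fin_cases b <;> fin_cases c <;> fin_cases d <;> simp at h h' e this <;> omega

theorem in1 (hγ : γ ∈ R.Φ) (h : R.In {j} γ) : ∃ a b, a ≠ b ∧ γ = r1 R j a b := by
  rcases hR.eq_of_coord hγ (i := j) (fun l hl => h l hl) with e | e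
  · exact ⟨0, 1, by decide, by simp [r1, e]⟩
  · exact ⟨1, 0, by decide, by simp [r1, e]⟩

theorem B_two (hij : R.A i j = -1) (hji : R.A j i = -1) (m n : ℤ) :
    R.B (m • R.α i + n • R.α j) (m • R.α i + n • R.α j) =
      (m * m - m * n + n * n) * R.B (R.α i) (R.α i) := by
  have h2 := hR.pr_B (R.α i) j
  have h3 := hR.pr_B (R.α j) i
  rw [RS.pr_α, hij] at h2
  rw [RS.pr_α, hji, hR.B_comm (R.α j)] at h3
  rw [hR.B_add, hR.B_smul, hR.B_smul, hR.B_comm (R.α i), hR.B_comm (R.α j), hR.B_add, hR.B_add,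
    hR.B_smul, hR.B_smul, hR.B_smul, hR.B_smul, hR.B_comm (R.α j) (R.α i)]
  linear_combination (-(n * n)) * h2 + (n * n - m * n) * h3

theorem quad (hij : R.A i j = -1) (hji : R.A j i = -1) {m n : ℤ}
    (h : m • R.α i + n • R.α j ∈ R.Φ) : m * m - m * n + n * n = 1 := by
  obtain ⟨w, hw, l, hl, e⟩ := hR.exists_conj_J (J := {i, j}) h fun l hl => by
    rw [Set.mem_insert_iff, Set.mem_singleton_iff, not_or] at hl
    simp [RS.α_ne hl.1, RS.α_ne hl.2]
  have h1 := hR.B_inv (RS.WJ_le _ hw) (R.α l) (R.α l)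
  have h5 : R.B (R.α l) (R.α l) = R.B (R.α i) (R.α i) := by
    rcases hl with rfl | rfl
    · rfl
    · simpa using B_two hR hij hji 0 1
  rw [← e, B_two hR hij hji, h5] at h1
  exact mul_right_cancel₀ (hR.B_α_pos i).ne' (by rw [h1, one_mul])

theorem add_mem' (hji : R.A j i = -1) : R.α i + R.α j ∈ R.Φ := by
  have := hR.map_mem (RS.sE_mem_W i) (hR.simple j)
  rwa [hR.sE_eq, RS.pr_α, hji, neg_smul, one_smul, sub_neg_eq_add, add_comm] at this

theorem as2 (ne : i ≠ j) (hij : R.A i j = -1) (hji : R.A j i = -1) : As R (r2 R i j) := by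
  refine ⟨fun a b h => ?_, fun a b c => by simp [r2], fun a b c d h h' => ?_,
    fun a b c d m n h h' e hm hn H => ?_⟩
  · have h1 := add_mem' hR hji
    have h2 := hR.neg_mem h1
    rw [neg_add_rev] at h2
    fin_cases a <;> fin_cases b <;>
      simp [r2, hR.simple, hR.neg_mem (hR.simple j), hR.neg_mem (hR.simple i), h1, h2] at h ⊢
  · rw [r2_eq, r2_eq, B_two hR hij hji, B_two hR hij hji]
    congr 1
    revert a b c d
    decide
  · rw [r2_eq, r2_eq, ← natCast_zsmul, ← natCast_zsmul, smul_add, smul_add, smul_smul, smul_smul,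
      smul_smul, smul_smul, add_add_add_comm, ← add_smul, ← add_smul] at H
    have := six (quad hR hij hji H)
    fin_cases a <;> fin_cases b <;> fin_cases c <;> fin_cases d <;> simp at h h' e this ⊢ <;> omega

theorem in2 (ne : i ≠ j) (hij : R.A i j = -1) (hji : R.A j i = -1) (hγ : γ ∈ R.Φ)
    (h : R.In {i, j} γ) : ∃ a b, a ≠ b ∧ γ = r2 R i j a b := by
  have e := eq_two ne h
  rcases six (quad hR hij hji (e ▸ hγ)) with q | q | q | q | q | q <;> rw [q.1, q.2] at e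
  · exact ⟨0, 1, by decide, by simp [r2_eq, e]⟩
  · exact ⟨1, 2, by decide, by simp [r2_eq, e]⟩
  · exact ⟨0, 2, by decide, by simp [r2_eq, e]⟩
  · exact ⟨1, 0, by decide, by simp [r2_eq, e]⟩
  · exact ⟨2, 1, by decide, by simp [r2_eq, e]⟩
  · exact ⟨2, 0, by decide, by simp [r2_eq, e]⟩

theorem orth (ne : i ≠ j) (h : R.A i j = 0) {m n : ℤ} (H : m • R.α i + n • R.α j ∈ R.Φ) :
    m = 0 ∨ n = 0 := by
  have e1 : R.sE i (R.α j) = R.α j := by simp [hR.sE_eq, RS.pr_α, hR.A_zero_comm.1 h]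
  have s := (hR.sign _ (hR.map_mem (RS.sE_mem_W i) H)).2
  have t := (hR.sign _ H).2
  rw [map_add, map_smul, map_smul, hR.sE_α, e1] at s
  rcases s with s | s <;> rcases t with t | t
  all_goals
    have s1 := s i
    have s2 := s j
    have t1 := t i
    have t2 := t j
    simp [RS.α_self, RS.α_ne ne, RS.α_ne ne.symm] at s1 s2 t1 t2
    omega

theorem in3 (ne : i ≠ j) (h : R.A i j = 0) (hγ : γ ∈ R.Φ) (H : R.In {i, j} γ) :
    R.In {i} γ ∨ R.In {j} γ := by
  have e := eq_two ne H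
  rcases orth hR ne h (e ▸ hγ) with q | q <;> rw [q] at e
  · exact Or.inr (by rw [e, zero_smul, zero_add]; exact (RS.In_α (Set.mem_singleton _)).smul _)
  · exact Or.inl (by rw [e, zero_smul, add_zero]; exact (RS.In_α (Set.mem_singleton _)).smul _)

theorem cj {K G : Type} [Field K] [Group G] {Γ : RG R K G} (hΓ : Γ.Ok) {n : G} {w : R.Aut}
    {γ δ : R.Q} (h : Γ.Rep n w) (hγ : γ ∈ R.Φ) (hδ : δ ∈ R.Φ)
    (H : ∀ t u, Commute (Γ.x γ t) (Γ.x δ u)) (t u : K) :
    Commute (Γ.x (w γ) t) (Γ.x (w δ) u) := by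
  obtain ⟨c, hc⟩ := hΓ.rep_conj hR h hγ
  obtain ⟨d, hd⟩ := hΓ.rep_conj hR h hδ
  rw [← c.mul_inv_cancel_left t, ← d.mul_inv_cancel_left u, ← (hc _).1, ← (hd _).1]
  exact (H _ _).map (MulAut.conj n)

omit hR in
theorem cm3 {K G : Type} [Field K] [Group G] (Γ : RG R K G) (hΓ : Γ.Ok) (hR : R.Ok) (ne : i ≠ j)
    (h : R.A i j = 0) : ∀ g ∈ Γ.X {γ | R.In {i} γ}, ∀ g' ∈ Γ.X {γ | R.In {j} γ},
      Commute g g' := by
  have e1 : R.sE i (R.α j) = R.α j := by simp [hR.sE_eq, RS.pr_α, hR.A_zero_comm.1 h]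
  have e2 : R.sE j (R.α i) = R.α i := by simp [hR.sE_eq, RS.pr_α, h]
  have a : ∀ t u, Commute (Γ.x (R.α i) t) (Γ.x (R.α j) u) := fun t u => by
    have c := hΓ.comm _ (hR.simple i) _ (hR.simple j) (RS.α_nonneg i) (RS.α_nonneg j) t u
    have d := RG.X_le (K := ⊥) (fun γ q m _ => by
      obtain ⟨a, b, a0, b0, e⟩ := q
      rw [e, ← natCast_zsmul, ← natCast_zsmul] at m
      have := orth hR ne h m
      omega) c
    exact commutatorElement_eq_one_iff_commute.1 (Subgroup.mem_bot.1 d)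
  have b := cj hR hΓ (RG.rep_n i) (hR.simple i) (hR.simple j) a
  have c := cj hR hΓ (RG.rep_n j) (hR.simple i) (hR.simple j) a
  rw [hR.sE_α, e1] at b
  have d := cj hR hΓ (RG.rep_n j) (hR.neg_mem (hR.simple i)) (hR.simple j) b
  rw [hR.sE_α, e2] at c
  rw [hR.sE_α, map_neg, e2] at d
  intro g hg g' hg'
  refine Subgroup.mem_centralizer_singleton_iff.1 (RG.X_le (K := Subgroup.centralizer {g'})
    (fun γ q m t => Subgroup.mem_centralizer_singleton_iff.2 ?_) hg)
  refine (Subgroup.mem_centralizer_singleton_iff.1 (RG.X_le (K := Subgroup.centralizer {Γ.x γ t})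
    (fun δ q' m' u => Subgroup.mem_centralizer_singleton_iff.2 ?_) hg')).symm
  rcases hR.eq_of_coord m (i := i) (fun l hl => q l hl) with rfl | rfl <;>
    rcases hR.eq_of_coord m' (i := j) (fun l hl => q' l hl) with rfl | rfl
  exacts [(a _ _).eq.symm, (c _ _).eq.symm, (b _ _).eq.symm, (d _ _).eq.symm]

end Vale.Agent.P011UHR3
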